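import Vale.Agent.P151.QMain
import Vale.Agent.P151.QCayley

/-!
No infinite cluster at the critical point on unimodular quasi-transitive graphs whose return
probabilities decay faster than a stretched exponential with exponent one third.
-/

namespace Vale.Agent.Results.P151.CriticalUnimodular

open MeasureTheory SimpleGraph Filter Vale.Agent.P165 Vale.Agent.P151

theorem result :
    (∀ (V : Type) [Infinite V] (G : SimpleGraph V), (∀ v, (G.neighborSet v).Finite) →
      G.Connected → QuasiTransitive G → Unimodular G →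
      ∀ γ c : ℝ, 1 / 3 < γ → 0 < c →
      (∀ᶠ k : ℕ in atTop, ∀ x, walkProb G (2 * k) x x ≤ Real.exp (-(c * (k : ℝ) ^ γ))) →
      (∃ p : unitInterval, (p : ℝ) = pc G ∧ (p : ℝ) < 1 ∧
        ∀ x, percMeasure G p (infAt G x) = 0) ∧
      ∀ x, ContinuousOn (fun p : unitInterval => (percMeasure G p).real (infAt G x))
        {p | 0 < (p : ℝ)}) ∧
    ∀ (Γ : Type) [Group Γ] (S : Set Γ),
      QuasiTransitive (mulCayley S) ∧ Unimodular (mulCayley S) := by
  refine ⟨?_, ?_⟩
  · intro V _ G hfin hconn hQ hU γ c hγ hc hret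
    have : G.LocallyFinite := fun v => (hfin v).fintype
    exact no_percolation_at_pc_unimodular G hconn hQ hU hγ hc hret
  · intro Γ _ S
    refine ⟨⟨{1}, fun v => ?_⟩, cayley_unimodular S⟩
    obtain ⟨φ, hφ⟩ := cayley_one_orbit S v
    exact ⟨φ, Finset.mem_singleton.2 hφ⟩

end Vale.Agent.Results.P151.CriticalUnimodular
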